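import Vale.Agent.H8.P057Final

namespace Vale.Agent.Results.P057.FourTerm

open Vale.Agent.H8.P057

/-- Improved lower bound for `r_4(N)`, with logarithms natural. -/
theorem result :
    2 * √(2 * Real.log (9 / 5)) < 2 * √(Real.log (24 / 7)) ∧
    ∀ ε : ℝ, 0 < ε → ∀ᶠ N : ℕ in Filter.atTop,
      (N : ℝ) * Real.exp (-(2 * √(2 * Real.log (9 / 5)) + ε) * √(Real.log N)) ≤ (r 4 N : ℝ) :=
  ⟨constant_lt, fun ε hε => asymptotic ε hε⟩

end Vale.Agent.Results.P057.FourTerm
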